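import Mathlib
open Set Filter

namespace Vale.Agent.P031

/-- `V x` is the number of distinct values `v ≤ x` of Euler's totient function on positive integers. -/
noncomputable def V (x : ℝ) : ℕ :=
  {v : ℕ | (v : ℝ) ≤ x ∧ ∃ n : ℕ, 0 < n ∧ Nat.totient n = v}.ncard

lemma setV_subset (x : ℝ) :
    {v : ℕ | (v : ℝ) ≤ x ∧ ∃ n : ℕ, 0 < n ∧ Nat.totient n = v} ⊆ ↑(Finset.Icc 1 ⌊x⌋₊) := by
  rintro v ⟨hv, n, hn, rfl⟩
  simp only [Finset.coe_Icc, mem_Icc]
  exact ⟨Nat.totient_pos.2 hn, Nat.le_floor hv⟩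

lemma setV_finite (x : ℝ) :
    {v : ℕ | (v : ℝ) ≤ x ∧ ∃ n : ℕ, 0 < n ∧ Nat.totient n = v}.Finite :=
  (Finset.finite_toSet _).subset (setV_subset x)

lemma V_mono : Monotone V := by
  intro x y hxy
  apply ncard_le_ncard _ (setV_finite y)
  rintro v ⟨hv, h⟩
  exact ⟨hv.trans hxy, h⟩

lemma V_le_floor (x : ℝ) : V x ≤ ⌊x⌋₊ := by
  have := ncard_le_ncard (setV_subset x) (Finset.finite_toSet _)
  simpa [V, ncard_coe_finset] using this

lemma V_le {x : ℝ} (hx : 0 ≤ x) : (V x : ℝ) ≤ x :=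
  le_trans (by exact_mod_cast V_le_floor x) (Nat.floor_le hx)

lemma one_le_V {x : ℝ} (hx : 1 ≤ x) : 1 ≤ V x := by
  have : (1 : ℕ) ∈ {v : ℕ | (v : ℝ) ≤ x ∧ ∃ n : ℕ, 0 < n ∧ Nat.totient n = v} :=
    ⟨by simpa using hx, 1, one_pos, by simp⟩
  exact (ncard_pos (setV_finite x)).2 ⟨1, this⟩

lemma V_le_add_one {x y : ℝ} (hy : y ≤ x + 1) : V y ≤ V x + 1 := by
  have hsub : {v : ℕ | (v : ℝ) ≤ y ∧ ∃ n : ℕ, 0 < n ∧ Nat.totient n = v} ⊆
      insert ⌊y⌋₊ {v : ℕ | (v : ℝ) ≤ x ∧ ∃ n : ℕ, 0 < n ∧ Nat.totient n = v} := by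
    rintro v ⟨hv, h⟩
    by_cases hvx : (v : ℝ) ≤ x
    · exact Or.inr ⟨hvx, h⟩
    · left
      replace hvx := not_le.1 hvx
      have h1 : v ≤ ⌊y⌋₊ := Nat.le_floor hv
      have hy0 : 0 ≤ y := le_trans (Nat.cast_nonneg v) hv
      have h2 : (⌊y⌋₊ : ℝ) < v + 1 := by
        have := Nat.floor_le hy0
        linarith
      have h3 : ⌊y⌋₊ < v + 1 := by exact_mod_cast h2
      show v = ⌊y⌋₊
      omega
  calc V y ≤ (insert ⌊y⌋₊ {v : ℕ | (v : ℝ) ≤ x ∧ ∃ n : ℕ, 0 < n ∧ Nat.totient n = v}).ncard :=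
        ncard_le_ncard hsub ((setV_finite x).insert _)
    _ ≤ V x + 1 := ncard_insert_le _ _

lemma primeCounting_le_V (x : ℝ) : Nat.primeCounting ⌊x⌋₊ ≤ V x := by
  classical
  have hcard : Nat.primeCounting ⌊x⌋₊ = (Nat.primesLE ⌊x⌋₊).card := by
    simp [Nat.primesLE, Nat.primeCounting, Nat.primeCounting', Nat.count_eq_card_filter_range,
      Nat.primesBelow]
  rw [hcard, ← ncard_coe_finset]
  apply ncard_le_ncard_of_injOn (fun p => p - 1) _ _ (setV_finite x)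
  · intro p hp
    have hp' := Nat.mem_primesLE.1 (Finset.mem_coe.1 hp)
    refine ⟨?_, p, hp'.2.pos, Nat.totient_prime hp'.2⟩
    have hx : 0 ≤ x := by
      by_contra hneg
      replace hneg := not_le.1 hneg
      have : ⌊x⌋₊ = 0 := Nat.floor_of_nonpos hneg.le
      have := hp'.2.pos
      omega
    calc ((p - 1 : ℕ) : ℝ) ≤ (p : ℝ) := by exact_mod_cast Nat.sub_le p 1
      _ ≤ (⌊x⌋₊ : ℝ) := by exact_mod_cast hp'.1
      _ ≤ x := Nat.floor_le hx
  · intro p hp q hq hpq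
    have hp' := (Nat.mem_primesLE.1 (Finset.mem_coe.1 hp)).2.pos
    have hq' := (Nat.mem_primesLE.1 (Finset.mem_coe.1 hq)).2.pos
    simp only at hpq
    omega

/-- explicit Chebyshev-type lower bound -/
lemma V_mul_log_ge {x : ℝ} (hx : 9 ≤ x) : x / 4 ≤ V x * Real.log x := by
  have hx1 : 1 < x := by linarith
  have h1 := Chebyshev.pi_ge' hx1
  have hlog : 0 < Real.log x := Real.log_pos hx1
  rw [div_le_iff₀ hlog] at h1
  have h2 : (Nat.primeCounting ⌊x⌋₊ : ℝ) ≤ V x := by exact_mod_cast primeCounting_le_V x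
  have h3 : Real.log (x + 2) ≤ (x + 2) / 4 + 2 * Real.log 2 - 1 := by
    have h4 : Real.log ((x + 2) / 4) ≤ (x + 2) / 4 - 1 :=
      Real.log_le_sub_one_of_pos (by positivity)
    rw [Real.log_div (by positivity) (by norm_num)] at h4
    have h5 : Real.log 4 = 2 * Real.log 2 := by
      rw [show (4 : ℝ) = 2 ^ 2 by norm_num, Real.log_pow]; norm_num
    linarith
  have l1 := Real.log_two_gt_d9
  have l2 := Real.log_two_lt_d9
  have h6 : x / 4 ≤ (x - 1) * Real.log 2 - Real.log (x + 2) := by nlinarith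
  calc x / 4 ≤ (x - 1) * Real.log 2 - Real.log (x + 2) := h6
    _ ≤ Nat.primeCounting ⌊x⌋₊ * Real.log x := h1
    _ ≤ V x * Real.log x := by gcongr

lemma tendsto_V : Tendsto V atTop atTop := by
  apply tendsto_atTop_mono primeCounting_le_V
  exact Nat.tendsto_primeCounting.comp tendsto_nat_floor_atTop

end Vale.Agent.P031
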