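import Vale.Agent.P031.Basic
open Set Filter

namespace Vale.Agent.P031

/-- exponential beats linear -/
lemma exists_lin_lt_pow {u : ℝ} (hu : 1 < u) (A B : ℝ) : ∃ k : ℕ, A * k + B < u ^ k := by
  have h1 : Tendsto (fun n : ℕ => (n : ℝ) ^ 1 / u ^ n) atTop (nhds 0) :=
    tendsto_pow_const_div_const_pow_of_one_lt 1 hu
  have h0 : Tendsto (fun n : ℕ => (n : ℝ) ^ 0 / u ^ n) atTop (nhds 0) :=
    tendsto_pow_const_div_const_pow_of_one_lt 0 hu
  have h2 : Tendsto (fun n : ℕ => A * ((n : ℝ) ^ 1 / u ^ n) + B * ((n : ℝ) ^ 0 / u ^ n)) atTop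
      (nhds (A * 0 + B * 0)) := (h1.const_mul A).add (h0.const_mul B)
  simp only [mul_zero, add_zero] at h2
  obtain ⟨k, hk⟩ := (h2.eventually (gt_mem_nhds (show (0 : ℝ) < 1 by norm_num))).exists
  refine ⟨k, ?_⟩
  have hpos : 0 < u ^ k := by positivity
  have : A * ((k : ℝ) ^ 1 / u ^ k) + B * ((k : ℝ) ^ 0 / u ^ k) = (A * k + B) / u ^ k := by
    field_simp
  rw [this, div_lt_one hpos] at hk
  exact hk

/-- the growth contradiction, upper side -/
lemma not_forall_ge {c ε X : ℝ} (hc : 1 < c) (hε : 0 < ε) (hX : 1 ≤ X)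
    (h : ∀ x, X ≤ x → (c + ε) * V x ≤ V (c * x)) : False := by
  have hc0 : 0 < c := by linarith
  have key : ∀ k : ℕ, (c + ε) ^ k ≤ V (c ^ k * X) := by
    intro k
    induction k with
    | zero => simpa using (by exact_mod_cast one_le_V hX : (1 : ℝ) ≤ V X)
    | succ k ih =>
      have hge : X ≤ c ^ k * X := by
        have : 1 ≤ c ^ k := one_le_pow₀ hc.le
        nlinarith
      have := h _ hge
      calc (c + ε) ^ (k + 1) = (c + ε) * (c + ε) ^ k := by ring
        _ ≤ (c + ε) * V (c ^ k * X) := by gcongr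
        _ ≤ V (c * (c ^ k * X)) := this
        _ = V (c ^ (k + 1) * X) := by congr 2; ring
  have hu : 1 < (c + ε) / c := by rw [one_lt_div hc0]; linarith
  obtain ⟨k, hk⟩ := exists_lin_lt_pow hu 0 X
  have h1 : (V (c ^ k * X) : ℝ) ≤ c ^ k * X := V_le (by positivity)
  have h2 := (key k).trans h1
  rw [div_pow, lt_div_iff₀ (by positivity)] at hk
  nlinarith

/-- the growth contradiction, lower side -/
lemma not_forall_le {c ε X : ℝ} (hc : 1 < c) (hε : 0 < ε) (hεc : ε < c) (hX : 9 ≤ X)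
    (h : ∀ x, X ≤ x → (V (c * x) : ℝ) ≤ (c - ε) * V x) : False := by
  have hc0 : 0 < c := by linarith
  have hcε : 0 < c - ε := by linarith
  have hgeX : ∀ k : ℕ, X ≤ c ^ k * X := by
    intro k
    have : 1 ≤ c ^ k := one_le_pow₀ hc.le
    nlinarith
  have key : ∀ k : ℕ, (V (c ^ k * X) : ℝ) ≤ (c - ε) ^ k * V X := by
    intro k
    induction k with
    | zero => simp
    | succ k ih =>
      have := h _ (hgeX k)
      calc (V (c ^ (k + 1) * X) : ℝ) = V (c * (c ^ k * X)) := by congr 2; ring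
        _ ≤ (c - ε) * V (c ^ k * X) := this
        _ ≤ (c - ε) * ((c - ε) ^ k * V X) := by gcongr
        _ = (c - ε) ^ (k + 1) * V X := by ring
  have hu : 1 < c / (c - ε) := by rw [one_lt_div hcε]; linarith
  obtain ⟨k, hk⟩ := exists_lin_lt_pow hu (4 * V X / X * Real.log c) (4 * V X / X * Real.log X)
  have h1 := V_mul_log_ge (hX.trans (hgeX k))
  have hlog : Real.log (c ^ k * X) = k * Real.log c + Real.log X := by
    rw [Real.log_mul (by positivity) (by positivity), Real.log_pow]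
  have hlogpos : 0 ≤ k * Real.log c + Real.log X := by
    have := Real.log_nonneg hc.le
    have := Real.log_nonneg (show (1 : ℝ) ≤ X by linarith)
    positivity
  rw [hlog] at h1
  have h2 : c ^ k * X / 4 ≤ (c - ε) ^ k * V X * (k * Real.log c + Real.log X) :=
    h1.trans (by gcongr; exact key k)
  rw [div_pow, lt_div_iff₀ (by positivity)] at hk
  have hXpos : 0 < X := by linarith
  have h3 : (4 * V X / X * Real.log c * k + 4 * V X / X * Real.log X) * (c - ε) ^ k
      = 4 / X * ((c - ε) ^ k * V X * (k * Real.log c + Real.log X)) := by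
    field_simp
  rw [h3] at hk
  have h4 : 4 / X * (c ^ k * X / 4) = c ^ k := by field_simp
  have h5 : 4 / X * (c ^ k * X / 4) ≤ 4 / X * ((c - ε) ^ k * V X * (k * Real.log c + Real.log X)) := by
    gcongr
  linarith

end Vale.Agent.P031
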